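import Crest.Agent.R197.Graph
import Crest.Agent.R197.Signs

/-! The clique complex of `Γ₀` is two-dimensional and acyclic.

Recipe. Levels `0` (vertices `0-4`), `1` (`5-14`), `2` (`15-20`): adjacent vertices have different levels, so
cliques have at most three elements. The cliques are `∅`, 21 vertices, 80 edges, 60 triangles; give them as
explicit sorted lists, compute (Python) an integral chain contraction `s` (`sbd ∘ s + s ∘ sbd = id`), state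
the identity for formal sums `List (ℤ × List (Fin 21))` or indices through a computable coefficient function,
check it with `decide +kernel` in several pieces and transfer to `Finsupp`. -/

set_option autoImplicit false

open Quaternion

namespace Crest.Agent.R197

open Crest.Agent.Lib.CWComb

namespace GAc

/-- formal sums of simplices -/
abbrev FS : Type := List (ℤ × List (Fin 21))

noncomputable def ev (l : FS) : Finset (Fin 21) →₀ ℤ :=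
  (l.map fun p => p.1 • Finsupp.single p.2.toFinset (1 : ℤ)).sum

@[simp] theorem ev_nil : ev [] = 0 := rfl

theorem ev_cons (p : ℤ × List (Fin 21)) (l : FS) :
    ev (p :: l) = p.1 • Finsupp.single p.2.toFinset (1 : ℤ) + ev l := by simp [ev]

theorem ev_append (l l' : FS) : ev (l ++ l') = ev l + ev l' := by simp [ev]

def ins (c : ℤ) (k : List (Fin 21)) : FS → FS
  | [] => [(c, k)]
  | (d, j) :: t => if j = k then (if c + d = 0 then t else (c + d, j) :: t) else (d, j) :: ins c k t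

theorem ev_ins (c : ℤ) (k : List (Fin 21)) (l : FS) : ev (ins c k l) = ev ((c, k) :: l) := by
  induction l with
  | nil => rfl
  | cons p t ih =>
    obtain ⟨d, j⟩ := p
    unfold ins
    split_ifs with h1 h2
    · subst h1
      rw [ev_cons, ev_cons, ← add_assoc, ← add_smul, h2, zero_smul, zero_add]
    · subst h1
      rw [ev_cons, ev_cons, ev_cons, ← add_assoc, ← add_smul]
    · rw [ev_cons, ih, ev_cons, ev_cons, ev_cons, add_left_comm]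

def nrm : FS → FS
  | [] => []
  | p :: t => ins p.1 p.2 (nrm t)

theorem ev_nrm (l : FS) : ev (nrm l) = ev l := by
  induction l with
  | nil => rfl
  | cons p t ih => rw [nrm, ev_ins, ev_cons, ev_cons, ih]

def ext (f : List (Fin 21) → FS) (l : FS) : FS :=
  l.flatMap fun p => (f p.2).map fun q => (p.1 * q.1, q.2)

theorem ev_scale (c : ℤ) (l : FS) : ev (l.map fun q => (c * q.1, q.2)) = c • ev l := by
  induction l with
  | nil => simp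
  | cons p t ih => rw [List.map_cons, ev_cons, ev_cons, ih, smul_add, mul_smul]

theorem ev_ext (f : List (Fin 21) → FS) (T : (Finset (Fin 21) →₀ ℤ) →ₗ[ℤ] (Finset (Fin 21) →₀ ℤ))
    (l : FS) (h : ∀ p ∈ l, T (Finsupp.single p.2.toFinset 1) = ev (f p.2)) :
    ev (ext f l) = T (ev l) := by
  induction l with
  | nil => simp [ext]
  | cons p t ih =>
    rw [ext, List.flatMap_cons, ev_append, ev_scale, ev_cons, map_add, map_smul,
      h p List.mem_cons_self, ← ih fun q hq => h q (List.mem_cons_of_mem _ hq), ext]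

def bdL (l : List (Fin 21)) : FS :=
  l.map fun a => ((-1) ^ (l.filter (· < a)).length, l.filter (· ≠ a))

theorem sbd_single {l : List (Fin 21)} (h : l.Nodup) :
    sbd (Finsupp.single l.toFinset 1) = ev (bdL l) := by
  rw [sbd, Finsupp.linearCombination_single, one_smul, List.sum_toFinset _ h, ev, bdL, List.map_map]
  congr 1
  refine List.map_congr_left fun a _ => ?_
  simp only [Function.comp, sgn]
  rw [← List.toFinset_card_of_nodup (h.filter _), List.toFinset_filter, List.toFinset_filter,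
    ← Finset.filter_ne']
  simp

def adjF (a b : Fin 21) : Bool := Nat.testBit 27464061180116374301634337969719606033267766873766921199268466846591971562490066721340622942512515093685022139283492153825532281312 (21 * a.1 + b.1)

theorem adjF_eq : ∀ a b, adjF a b = adj₀ a b := by decide +kernel

def isCl : List (Fin 21) → Bool
  | [] => true
  | a :: t => t.all (adjF a) && isCl t

theorem isCl_pairwise {l : List (Fin 21)} (h : isCl l = true) : l.Pairwise Γ₀.Adj := by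
  induction l with
  | nil => exact List.Pairwise.nil
  | cons a t ih =>
    simp only [isCl, Bool.and_eq_true, List.all_eq_true, adjF_eq] at h
    exact List.Pairwise.cons h.1 (ih h.2)

theorem isCl_nodup {l : List (Fin 21)} (h : isCl l = true) : l.Nodup :=
  (isCl_pairwise h).imp fun h => h.ne

theorem isCl_clique {l : List (Fin 21)} (h : isCl l = true) :
    Γ₀.IsClique (l.toFinset : Set (Fin 21)) := by
  intro a ha b hb hab
  haveI : Std.Symm Γ₀.Adj := ⟨fun _ _ h => h.symm⟩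
  exact (isCl_pairwise h).forall (by simpa using ha) (by simpa using hb) hab

def tab0 : List (List (Fin 21) × FS) :=
  [
   ([], [(1, [0])]),
   ([5], [(1, [0, 5])]),
   ([6], [(1, [0, 6])]),
   ([7], [(1, [0, 7])]),
   ([8], [(1, [0, 8])]),
   ([15], [(1, [0, 15])]),
   ([16], [(1, [0, 16])]),
   ([17], [(1, [0, 17])]),
   ([18], [(1, [0, 18])]),
   ([19], [(1, [0, 19])]),
   ([20], [(1, [0, 20])]),
   ([1], [(1, [0, 5]), (-1, [1, 5])]),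
   ([2], [(1, [0, 6]), (-1, [2, 6])]),
   ([3], [(1, [0, 7]), (-1, [3, 7])])]

def tab1 : List (List (Fin 21) × FS) :=
  [
   ([4], [(1, [0, 8]), (-1, [4, 8])]),
   ([9], [(1, [0, 15]), (-1, [9, 15])]),
   ([12], [(1, [0, 15]), (-1, [12, 15])]),
   ([14], [(1, [0, 15]), (-1, [14, 15])]),
   ([10], [(1, [0, 16]), (-1, [10, 16])]),
   ([13], [(1, [0, 16]), (-1, [13, 16])]),
   ([11], [(1, [0, 17]), (-1, [11, 17])]),
   ([1, 9], [(1, [0, 5, 15]), (-1, [1, 5, 15]), (1, [1, 9, 15])]),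
   ([1, 10], [(1, [0, 5, 16]), (-1, [1, 5, 16]), (1, [1, 10, 16])]),
   ([1, 11], [(1, [0, 5, 17]), (-1, [1, 5, 17]), (1, [1, 11, 17])]),
   ([1, 15], [(1, [0, 5, 15]), (-1, [1, 5, 15])]),
   ([1, 16], [(1, [0, 5, 16]), (-1, [1, 5, 16])]),
   ([1, 17], [(1, [0, 5, 17]), (-1, [1, 5, 17])]),
   ([1, 18], [(1, [0, 5, 17]), (1, [0, 6, 18]), (-1, [0, 6, 19]), (-1, [0, 7, 17]), (1, [0, 7, 20]), (1, [0,
    8, 19]), (-1, [0, 8, 20]), (-1, [1, 5, 17]), (-1, [1, 9, 18]), (1, [1, 9, 20]), (1, [1, 10, 19]), (-1,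
    [1, 10, 20]), (1, [1, 11, 17]), (-1, [1, 11, 19]), (-1, [2, 6, 18]), (1, [2, 6, 19]), (1, [2, 9, 18]),
    (-1, [2, 9, 20]), (1, [2, 12, 17]), (-1, [2, 12, 19]), (-1, [2, 13, 17]), (1, [2, 13, 20]), (1, [3, 7,
    17]), (-1, [3, 7, 20]), (-1, [3, 10, 19]), (1, [3, 10, 20]), (-1, [3, 12, 17]), (1, [3, 12, 19]), (-1,
    [4, 8, 19]), (1, [4, 8, 20]), (-1, [4, 11, 17]), (1, [4, 11, 19]), (1, [4, 13, 17]), (-1, [4, 13, 20])])]

def tab2 : List (List (Fin 21) × FS) :=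
  [
   ([1, 19], [(1, [0, 5, 16]), (-1, [0, 6, 16]), (1, [0, 6, 18]), (-1, [0, 7, 18]), (1, [0, 7, 20]), (1, [0,
    8, 19]), (-1, [0, 8, 20]), (-1, [1, 5, 16]), (-1, [1, 9, 18]), (1, [1, 9, 20]), (1, [1, 10, 16]), (-1,
    [1, 10, 20]), (1, [1, 11, 18]), (-1, [1, 11, 19]), (1, [2, 6, 16]), (-1, [2, 6, 18]), (1, [2, 9, 18]),
    (-1, [2, 9, 20]), (-1, [2, 13, 16]), (1, [2, 13, 20]), (1, [3, 7, 18]), (-1, [3, 7, 20]), (-1, [3, 10,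
    16]), (1, [3, 10, 20]), (1, [3, 14, 16]), (-1, [3, 14, 18]), (-1, [4, 8, 19]), (1, [4, 8, 20]), (-1, [4,
    11, 18]), (1, [4, 11, 19]), (1, [4, 13, 16]), (-1, [4, 13, 20]), (-1, [4, 14, 16]), (1, [4, 14, 18])]),
   ([1, 20], [(1, [0, 5, 15]), (1, [0, 6, 18]), (-1, [0, 6, 19]), (-1, [0, 7, 18]), (1, [0, 7, 20]), (-1,
    [0, 8, 15]), (1, [0, 8, 19]), (-1, [1, 5, 15]), (1, [1, 9, 15]), (-1, [1, 9, 18]), (1, [1, 10, 19]),
    (-1, [1, 10, 20]), (1, [1, 11, 18]), (-1, [1, 11, 19]), (-1, [2, 6, 18]), (1, [2, 6, 19]), (-1, [2, 9,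
    15]), (1, [2, 9, 18]), (1, [2, 12, 15]), (-1, [2, 12, 19]), (1, [3, 7, 18]), (-1, [3, 7, 20]), (-1, [3,
    10, 19]), (1, [3, 10, 20]), (-1, [3, 12, 15]), (1, [3, 12, 19]), (1, [3, 14, 15]), (-1, [3, 14, 18]),
    (1, [4, 8, 15]), (-1, [4, 8, 19]), (-1, [4, 11, 18]), (1, [4, 11, 19]), (-1, [4, 14, 15]), (1, [4, 14,
    18])]),
   ([2, 9], [(1, [0, 5, 15]), (-1, [0, 5, 17]), (1, [0, 6, 19]), (1, [0, 7, 17]), (-1, [0, 7, 20]), (-1, [0,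
    8, 19]), (1, [0, 8, 20]), (-1, [1, 5, 15]), (1, [1, 5, 17]), (1, [1, 9, 15]), (-1, [1, 9, 20]), (-1, [1,
    10, 19]), (1, [1, 10, 20]), (-1, [1, 11, 17]), (1, [1, 11, 19]), (-1, [2, 6, 19]), (1, [2, 9, 20]), (-1,
    [2, 12, 17]), (1, [2, 12, 19]), (1, [2, 13, 17]), (-1, [2, 13, 20]), (-1, [3, 7, 17]), (1, [3, 7, 20]),
    (1, [3, 10, 19]), (-1, [3, 10, 20]), (1, [3, 12, 17]), (-1, [3, 12, 19]), (1, [4, 8, 19]), (-1, [4, 8,
    20]), (1, [4, 11, 17]), (-1, [4, 11, 19]), (-1, [4, 13, 17]), (1, [4, 13, 20])]),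
   ([2, 12], [(1, [0, 5, 15]), (-1, [0, 5, 17]), (1, [0, 6, 19]), (1, [0, 7, 17]), (-1, [0, 7, 20]), (-1,
    [0, 8, 19]), (1, [0, 8, 20]), (-1, [1, 5, 15]), (1, [1, 5, 17]), (1, [1, 9, 15]), (-1, [1, 9, 20]), (-1,
    [1, 10, 19]), (1, [1, 10, 20]), (-1, [1, 11, 17]), (1, [1, 11, 19]), (-1, [2, 6, 19]), (-1, [2, 9, 15]),
    (1, [2, 9, 20]), (1, [2, 12, 15]), (-1, [2, 12, 17]), (1, [2, 12, 19]), (1, [2, 13, 17]), (-1, [2, 13,
    20]), (-1, [3, 7, 17]), (1, [3, 7, 20]), (1, [3, 10, 19]), (-1, [3, 10, 20]), (1, [3, 12, 17]), (-1, [3,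
    12, 19]), (1, [4, 8, 19]), (-1, [4, 8, 20]), (1, [4, 11, 17]), (-1, [4, 11, 19]), (-1, [4, 13, 17]), (1,
    [4, 13, 20])]),
   ([2, 13], [(1, [0, 6, 16]), (-1, [2, 6, 16]), (1, [2, 13, 16])]),
   ([2, 15], [(1, [0, 5, 15]), (-1, [0, 5, 17]), (1, [0, 6, 19]), (1, [0, 7, 17]), (-1, [0, 7, 20]), (-1,
    [0, 8, 19]), (1, [0, 8, 20]), (-1, [1, 5, 15]), (1, [1, 5, 17]), (1, [1, 9, 15]), (-1, [1, 9, 20]), (-1,
    [1, 10, 19]), (1, [1, 10, 20]), (-1, [1, 11, 17]), (1, [1, 11, 19]), (-1, [2, 6, 19]), (-1, [2, 9, 15]),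
    (1, [2, 9, 20]), (-1, [2, 12, 17]), (1, [2, 12, 19]), (1, [2, 13, 17]), (-1, [2, 13, 20]), (-1, [3, 7,
    17]), (1, [3, 7, 20]), (1, [3, 10, 19]), (-1, [3, 10, 20]), (1, [3, 12, 17]), (-1, [3, 12, 19]), (1, [4,
    8, 19]), (-1, [4, 8, 20]), (1, [4, 11, 17]), (-1, [4, 11, 19]), (-1, [4, 13, 17]), (1, [4, 13, 20])]),
   ([2, 16], [(1, [0, 6, 16]), (-1, [2, 6, 16])]),
   ([2, 17], [(1, [0, 5, 15]), (-1, [0, 5, 16]), (1, [0, 6, 16]), (1, [0, 7, 17]), (-1, [0, 7, 20]), (-1,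
    [0, 8, 15]), (1, [0, 8, 20]), (-1, [1, 5, 15]), (1, [1, 5, 16]), (1, [1, 9, 15]), (-1, [1, 9, 20]), (-1,
    [1, 10, 16]), (1, [1, 10, 20]), (-1, [2, 6, 16]), (-1, [2, 9, 15]), (1, [2, 9, 20]), (1, [2, 12, 15]),
    (-1, [2, 12, 17]), (1, [2, 13, 16]), (-1, [2, 13, 20]), (-1, [3, 7, 17]), (1, [3, 7, 20]), (1, [3, 10,
    16]), (-1, [3, 10, 20]), (-1, [3, 12, 15]), (1, [3, 12, 17]), (1, [3, 14, 15]), (-1, [3, 14, 16]), (1,
    [4, 8, 15]), (-1, [4, 8, 20]), (-1, [4, 13, 16]), (1, [4, 13, 20]), (-1, [4, 14, 15]), (1, [4, 14,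
    16])]),
   ([2, 18], [(1, [0, 6, 18]), (-1, [2, 6, 18])]),
   ([2, 19], [(1, [0, 6, 19]), (-1, [2, 6, 19])]),
   ([2, 20], [(1, [0, 5, 15]), (-1, [0, 5, 17]), (1, [0, 6, 18]), (1, [0, 7, 17]), (-1, [0, 7, 18]), (-1,
    [0, 8, 15]), (1, [0, 8, 20]), (-1, [1, 5, 15]), (1, [1, 5, 17]), (1, [1, 9, 15]), (-1, [1, 9, 18]), (-1,
    [1, 11, 17]), (1, [1, 11, 18]), (-1, [2, 6, 18]), (-1, [2, 9, 15]), (1, [2, 9, 18]), (1, [2, 12, 15]),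
    (-1, [2, 12, 17]), (1, [2, 13, 17]), (-1, [2, 13, 20]), (-1, [3, 7, 17]), (1, [3, 7, 18]), (-1, [3, 12,
    15]), (1, [3, 12, 17]), (1, [3, 14, 15]), (-1, [3, 14, 18]), (1, [4, 8, 15]), (-1, [4, 8, 20]), (1, [4,
    11, 17]), (-1, [4, 11, 18]), (-1, [4, 13, 17]), (1, [4, 13, 20]), (-1, [4, 14, 15]), (1, [4, 14, 18])]),
   ([3, 10], [(-1, [0, 5, 15]), (1, [0, 5, 16]), (-1, [0, 6, 18]), (1, [0, 6, 19]), (1, [0, 7, 18]), (1, [0,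
    8, 15]), (-1, [0, 8, 19]), (1, [1, 5, 15]), (-1, [1, 5, 16]), (-1, [1, 9, 15]), (1, [1, 9, 18]), (1, [1,
    10, 16]), (-1, [1, 10, 19]), (-1, [1, 11, 18]), (1, [1, 11, 19]), (1, [2, 6, 18]), (-1, [2, 6, 19]), (1,
    [2, 9, 15]), (-1, [2, 9, 18]), (-1, [2, 12, 15]), (1, [2, 12, 19]), (-1, [3, 7, 18]), (1, [3, 10, 19]),
    (1, [3, 12, 15]), (-1, [3, 12, 19]), (-1, [3, 14, 15]), (1, [3, 14, 18]), (-1, [4, 8, 15]), (1, [4, 8,
    19]), (1, [4, 11, 18]), (-1, [4, 11, 19]), (1, [4, 14, 15]), (-1, [4, 14, 18])]),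
   ([3, 12], [(1, [0, 5, 16]), (-1, [0, 5, 17]), (-1, [0, 6, 16]), (1, [0, 6, 19]), (1, [0, 7, 17]), (1, [0,
    8, 15]), (-1, [0, 8, 19]), (-1, [1, 5, 16]), (1, [1, 5, 17]), (1, [1, 10, 16]), (-1, [1, 10, 19]), (-1,
    [1, 11, 17]), (1, [1, 11, 19]), (1, [2, 6, 16]), (-1, [2, 6, 19]), (-1, [2, 12, 17]), (1, [2, 12, 19]),
    (-1, [2, 13, 16]), (1, [2, 13, 17]), (-1, [3, 7, 17]), (-1, [3, 10, 16]), (1, [3, 10, 19]), (1, [3, 12,
    15]), (1, [3, 12, 17]), (-1, [3, 12, 19]), (-1, [3, 14, 15]), (1, [3, 14, 16]), (-1, [4, 8, 15]), (1,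
    [4, 8, 19]), (1, [4, 11, 17]), (-1, [4, 11, 19]), (1, [4, 13, 16]), (-1, [4, 13, 17]), (1, [4, 14, 15]),
    (-1, [4, 14, 16])]),
   ([3, 14], [(1, [0, 5, 16]), (-1, [0, 5, 17]), (-1, [0, 6, 16]), (1, [0, 6, 19]), (1, [0, 7, 17]), (1, [0,
    8, 15]), (-1, [0, 8, 19]), (-1, [1, 5, 16]), (1, [1, 5, 17]), (1, [1, 10, 16]), (-1, [1, 10, 19]), (-1,
    [1, 11, 17]), (1, [1, 11, 19]), (1, [2, 6, 16]), (-1, [2, 6, 19]), (-1, [2, 12, 17]), (1, [2, 12, 19]),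
    (-1, [2, 13, 16]), (1, [2, 13, 17]), (-1, [3, 7, 17]), (-1, [3, 10, 16]), (1, [3, 10, 19]), (1, [3, 12,
    17]), (-1, [3, 12, 19]), (1, [3, 14, 16]), (-1, [4, 8, 15]), (1, [4, 8, 19]), (1, [4, 11, 17]), (-1, [4,
    11, 19]), (1, [4, 13, 16]), (-1, [4, 13, 17]), (1, [4, 14, 15]), (-1, [4, 14, 16])])]

def tab3 : List (List (Fin 21) × FS) :=
  [
   ([3, 15], [(1, [0, 5, 16]), (-1, [0, 5, 17]), (-1, [0, 6, 16]), (1, [0, 6, 19]), (1, [0, 7, 17]), (1, [0,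
    8, 15]), (-1, [0, 8, 19]), (-1, [1, 5, 16]), (1, [1, 5, 17]), (1, [1, 10, 16]), (-1, [1, 10, 19]), (-1,
    [1, 11, 17]), (1, [1, 11, 19]), (1, [2, 6, 16]), (-1, [2, 6, 19]), (-1, [2, 12, 17]), (1, [2, 12, 19]),
    (-1, [2, 13, 16]), (1, [2, 13, 17]), (-1, [3, 7, 17]), (-1, [3, 10, 16]), (1, [3, 10, 19]), (1, [3, 12,
    17]), (-1, [3, 12, 19]), (-1, [3, 14, 15]), (1, [3, 14, 16]), (-1, [4, 8, 15]), (1, [4, 8, 19]), (1, [4,
    11, 17]), (-1, [4, 11, 19]), (1, [4, 13, 16]), (-1, [4, 13, 17]), (1, [4, 14, 15]), (-1, [4, 14, 16])]),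
   ([3, 16], [(-1, [0, 5, 15]), (1, [0, 5, 16]), (-1, [0, 6, 18]), (1, [0, 6, 19]), (1, [0, 7, 18]), (1, [0,
    8, 15]), (-1, [0, 8, 19]), (1, [1, 5, 15]), (-1, [1, 5, 16]), (-1, [1, 9, 15]), (1, [1, 9, 18]), (1, [1,
    10, 16]), (-1, [1, 10, 19]), (-1, [1, 11, 18]), (1, [1, 11, 19]), (1, [2, 6, 18]), (-1, [2, 6, 19]), (1,
    [2, 9, 15]), (-1, [2, 9, 18]), (-1, [2, 12, 15]), (1, [2, 12, 19]), (-1, [3, 7, 18]), (-1, [3, 10, 16]),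
    (1, [3, 10, 19]), (1, [3, 12, 15]), (-1, [3, 12, 19]), (-1, [3, 14, 15]), (1, [3, 14, 18]), (-1, [4, 8,
    15]), (1, [4, 8, 19]), (1, [4, 11, 18]), (-1, [4, 11, 19]), (1, [4, 14, 15]), (-1, [4, 14, 18])]),
   ([3, 17], [(1, [0, 7, 17]), (-1, [3, 7, 17])]),
   ([3, 18], [(1, [0, 7, 18]), (-1, [3, 7, 18])]),
   ([3, 19], [(-1, [0, 5, 15]), (1, [0, 5, 16]), (-1, [0, 6, 16]), (1, [0, 6, 19]), (1, [0, 7, 20]), (1, [0,
    8, 15]), (-1, [0, 8, 20]), (1, [1, 5, 15]), (-1, [1, 5, 16]), (-1, [1, 9, 15]), (1, [1, 9, 20]), (1, [1,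
    10, 16]), (-1, [1, 10, 20]), (1, [2, 6, 16]), (-1, [2, 6, 19]), (1, [2, 9, 15]), (-1, [2, 9, 20]), (-1,
    [2, 12, 15]), (1, [2, 12, 19]), (-1, [2, 13, 16]), (1, [2, 13, 20]), (-1, [3, 7, 20]), (-1, [3, 10,
    16]), (1, [3, 10, 20]), (1, [3, 12, 15]), (-1, [3, 12, 19]), (-1, [3, 14, 15]), (1, [3, 14, 16]), (-1,
    [4, 8, 15]), (1, [4, 8, 20]), (1, [4, 13, 16]), (-1, [4, 13, 20]), (1, [4, 14, 15]), (-1, [4, 14, 16])]),
   ([3, 20], [(1, [0, 7, 20]), (-1, [3, 7, 20])]),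
   ([4, 11], [(-1, [0, 5, 16]), (1, [0, 5, 17]), (1, [0, 6, 16]), (-1, [0, 6, 18]), (1, [0, 7, 18]), (-1,
    [0, 7, 20]), (1, [0, 8, 20]), (1, [1, 5, 16]), (-1, [1, 5, 17]), (1, [1, 9, 18]), (-1, [1, 9, 20]), (-1,
    [1, 10, 16]), (1, [1, 10, 20]), (1, [1, 11, 17]), (-1, [1, 11, 18]), (-1, [2, 6, 16]), (1, [2, 6, 18]),
    (-1, [2, 9, 18]), (1, [2, 9, 20]), (1, [2, 13, 16]), (-1, [2, 13, 20]), (-1, [3, 7, 18]), (1, [3, 7,
    20]), (1, [3, 10, 16]), (-1, [3, 10, 20]), (-1, [3, 14, 16]), (1, [3, 14, 18]), (-1, [4, 8, 20]), (1,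
    [4, 11, 18]), (-1, [4, 13, 16]), (1, [4, 13, 20]), (1, [4, 14, 16]), (-1, [4, 14, 18])]),
   ([4, 13], [(-1, [0, 5, 15]), (1, [0, 5, 17]), (1, [0, 6, 16]), (-1, [0, 6, 18]), (-1, [0, 7, 17]), (1,
    [0, 7, 18]), (1, [0, 8, 15]), (1, [1, 5, 15]), (-1, [1, 5, 17]), (-1, [1, 9, 15]), (1, [1, 9, 18]), (1,
    [1, 11, 17]), (-1, [1, 11, 18]), (-1, [2, 6, 16]), (1, [2, 6, 18]), (1, [2, 9, 15]), (-1, [2, 9, 18]),
    (-1, [2, 12, 15]), (1, [2, 12, 17]), (1, [2, 13, 16]), (-1, [2, 13, 17]), (1, [3, 7, 17]), (-1, [3, 7,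
    18]), (1, [3, 12, 15]), (-1, [3, 12, 17]), (-1, [3, 14, 15]), (1, [3, 14, 18]), (-1, [4, 8, 15]), (-1,
    [4, 11, 17]), (1, [4, 11, 18]), (1, [4, 13, 17]), (1, [4, 14, 15]), (-1, [4, 14, 18])]),
   ([4, 14], [(1, [0, 8, 15]), (-1, [4, 8, 15]), (1, [4, 14, 15])]),
   ([4, 15], [(1, [0, 8, 15]), (-1, [4, 8, 15])]),
   ([4, 16], [(-1, [0, 5, 15]), (1, [0, 5, 17]), (1, [0, 6, 16]), (-1, [0, 6, 18]), (-1, [0, 7, 17]), (1,
    [0, 7, 18]), (1, [0, 8, 15]), (1, [1, 5, 15]), (-1, [1, 5, 17]), (-1, [1, 9, 15]), (1, [1, 9, 18]), (1,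
    [1, 11, 17]), (-1, [1, 11, 18]), (-1, [2, 6, 16]), (1, [2, 6, 18]), (1, [2, 9, 15]), (-1, [2, 9, 18]),
    (-1, [2, 12, 15]), (1, [2, 12, 17]), (1, [2, 13, 16]), (-1, [2, 13, 17]), (1, [3, 7, 17]), (-1, [3, 7,
    18]), (1, [3, 12, 15]), (-1, [3, 12, 17]), (-1, [3, 14, 15]), (1, [3, 14, 18]), (-1, [4, 8, 15]), (-1,
    [4, 11, 17]), (1, [4, 11, 18]), (-1, [4, 13, 16]), (1, [4, 13, 17]), (1, [4, 14, 15]), (-1, [4, 14,
    18])]),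
   ([4, 17], [(-1, [0, 5, 16]), (1, [0, 5, 17]), (1, [0, 6, 16]), (-1, [0, 6, 18]), (1, [0, 7, 18]), (-1,
    [0, 7, 20]), (1, [0, 8, 20]), (1, [1, 5, 16]), (-1, [1, 5, 17]), (1, [1, 9, 18]), (-1, [1, 9, 20]), (-1,
    [1, 10, 16]), (1, [1, 10, 20]), (1, [1, 11, 17]), (-1, [1, 11, 18]), (-1, [2, 6, 16]), (1, [2, 6, 18]),
    (-1, [2, 9, 18]), (1, [2, 9, 20]), (1, [2, 13, 16]), (-1, [2, 13, 20]), (-1, [3, 7, 18]), (1, [3, 7,
    20]), (1, [3, 10, 16]), (-1, [3, 10, 20]), (-1, [3, 14, 16]), (1, [3, 14, 18]), (-1, [4, 8, 20]), (-1,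
    [4, 11, 17]), (1, [4, 11, 18]), (-1, [4, 13, 16]), (1, [4, 13, 20]), (1, [4, 14, 16]), (-1, [4, 14,
    18])]),
   ([4, 18], [(-1, [0, 5, 16]), (1, [0, 5, 17]), (1, [0, 6, 16]), (-1, [0, 6, 19]), (-1, [0, 7, 17]), (1,
    [0, 7, 18]), (1, [0, 8, 19]), (1, [1, 5, 16]), (-1, [1, 5, 17]), (-1, [1, 10, 16]), (1, [1, 10, 19]),
    (1, [1, 11, 17]), (-1, [1, 11, 19]), (-1, [2, 6, 16]), (1, [2, 6, 19]), (1, [2, 12, 17]), (-1, [2, 12,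
    19]), (1, [2, 13, 16]), (-1, [2, 13, 17]), (1, [3, 7, 17]), (-1, [3, 7, 18]), (1, [3, 10, 16]), (-1, [3,
    10, 19]), (-1, [3, 12, 17]), (1, [3, 12, 19]), (-1, [3, 14, 16]), (1, [3, 14, 18]), (-1, [4, 8, 19]),
    (-1, [4, 11, 17]), (1, [4, 11, 19]), (-1, [4, 13, 16]), (1, [4, 13, 17]), (1, [4, 14, 16]), (-1, [4, 14,
    18])]),
   ([4, 19], [(1, [0, 8, 19]), (-1, [4, 8, 19])])]

def tab4 : List (List (Fin 21) × FS) :=
  [
   ([4, 20], [(1, [0, 8, 20]), (-1, [4, 8, 20])]),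
   ([5, 15], [(1, [0, 5, 15])]),
   ([5, 16], [(1, [0, 5, 16])]),
   ([5, 17], [(1, [0, 5, 17])]),
   ([6, 16], [(1, [0, 6, 16])]),
   ([6, 18], [(1, [0, 6, 18])]),
   ([6, 19], [(1, [0, 6, 19])]),
   ([7, 17], [(1, [0, 7, 17])]),
   ([7, 18], [(1, [0, 7, 18])]),
   ([7, 20], [(1, [0, 7, 20])]),
   ([8, 15], [(1, [0, 8, 15])]),
   ([8, 19], [(1, [0, 8, 19])]),
   ([8, 20], [(1, [0, 8, 20])]),
   ([9, 18], [(-1, [0, 5, 15]), (1, [0, 5, 17]), (1, [0, 6, 18]), (-1, [0, 6, 19]), (-1, [0, 7, 17]), (1,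
    [0, 7, 20]), (1, [0, 8, 19]), (-1, [0, 8, 20]), (1, [1, 5, 15]), (-1, [1, 5, 17]), (-1, [1, 9, 15]), (1,
    [1, 9, 20]), (1, [1, 10, 19]), (-1, [1, 10, 20]), (1, [1, 11, 17]), (-1, [1, 11, 19]), (-1, [2, 6, 18]),
    (1, [2, 6, 19]), (1, [2, 9, 18]), (-1, [2, 9, 20]), (1, [2, 12, 17]), (-1, [2, 12, 19]), (-1, [2, 13,
    17]), (1, [2, 13, 20]), (1, [3, 7, 17]), (-1, [3, 7, 20]), (-1, [3, 10, 19]), (1, [3, 10, 20]), (-1, [3,
    12, 17]), (1, [3, 12, 19]), (-1, [4, 8, 19]), (1, [4, 8, 20]), (-1, [4, 11, 17]), (1, [4, 11, 19]), (1,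
    [4, 13, 17]), (-1, [4, 13, 20])])]

def tab5 : List (List (Fin 21) × FS) :=
  [
   ([9, 20], [(1, [0, 6, 18]), (-1, [0, 6, 19]), (-1, [0, 7, 18]), (1, [0, 7, 20]), (-1, [0, 8, 15]), (1,
    [0, 8, 19]), (-1, [1, 9, 18]), (1, [1, 9, 20]), (1, [1, 10, 19]), (-1, [1, 10, 20]), (1, [1, 11, 18]),
    (-1, [1, 11, 19]), (-1, [2, 6, 18]), (1, [2, 6, 19]), (-1, [2, 9, 15]), (1, [2, 9, 18]), (1, [2, 12,
    15]), (-1, [2, 12, 19]), (1, [3, 7, 18]), (-1, [3, 7, 20]), (-1, [3, 10, 19]), (1, [3, 10, 20]), (-1,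
    [3, 12, 15]), (1, [3, 12, 19]), (1, [3, 14, 15]), (-1, [3, 14, 18]), (1, [4, 8, 15]), (-1, [4, 8, 19]),
    (-1, [4, 11, 18]), (1, [4, 11, 19]), (-1, [4, 14, 15]), (1, [4, 14, 18])]),
   ([10, 19], [(-1, [0, 6, 16]), (1, [0, 6, 18]), (-1, [0, 7, 18]), (1, [0, 7, 20]), (1, [0, 8, 19]), (-1,
    [0, 8, 20]), (-1, [1, 9, 18]), (1, [1, 9, 20]), (1, [1, 10, 19]), (-1, [1, 10, 20]), (1, [1, 11, 18]),
    (-1, [1, 11, 19]), (1, [2, 6, 16]), (-1, [2, 6, 18]), (1, [2, 9, 18]), (-1, [2, 9, 20]), (-1, [2, 13,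
    16]), (1, [2, 13, 20]), (1, [3, 7, 18]), (-1, [3, 7, 20]), (-1, [3, 10, 16]), (1, [3, 10, 20]), (1, [3,
    14, 16]), (-1, [3, 14, 18]), (-1, [4, 8, 19]), (1, [4, 8, 20]), (-1, [4, 11, 18]), (1, [4, 11, 19]), (1,
    [4, 13, 16]), (-1, [4, 13, 20]), (-1, [4, 14, 16]), (1, [4, 14, 18])]),
   ([10, 20], [(1, [0, 5, 15]), (-1, [0, 5, 16]), (1, [0, 6, 18]), (-1, [0, 6, 19]), (-1, [0, 7, 18]), (1,
    [0, 7, 20]), (-1, [0, 8, 15]), (1, [0, 8, 19]), (-1, [1, 5, 15]), (1, [1, 5, 16]), (1, [1, 9, 15]), (-1,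
    [1, 9, 18]), (-1, [1, 10, 16]), (1, [1, 10, 19]), (1, [1, 11, 18]), (-1, [1, 11, 19]), (-1, [2, 6, 18]),
    (1, [2, 6, 19]), (-1, [2, 9, 15]), (1, [2, 9, 18]), (1, [2, 12, 15]), (-1, [2, 12, 19]), (1, [3, 7,
    18]), (-1, [3, 7, 20]), (-1, [3, 10, 19]), (1, [3, 10, 20]), (-1, [3, 12, 15]), (1, [3, 12, 19]), (1,
    [3, 14, 15]), (-1, [3, 14, 18]), (1, [4, 8, 15]), (-1, [4, 8, 19]), (-1, [4, 11, 18]), (1, [4, 11, 19]),
    (-1, [4, 14, 15]), (1, [4, 14, 18])]),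
   ([11, 18], [(1, [0, 6, 18]), (-1, [0, 6, 19]), (-1, [0, 7, 17]), (1, [0, 7, 20]), (1, [0, 8, 19]), (-1,
    [0, 8, 20]), (-1, [1, 9, 18]), (1, [1, 9, 20]), (1, [1, 10, 19]), (-1, [1, 10, 20]), (1, [1, 11, 18]),
    (-1, [1, 11, 19]), (-1, [2, 6, 18]), (1, [2, 6, 19]), (1, [2, 9, 18]), (-1, [2, 9, 20]), (1, [2, 12,
    17]), (-1, [2, 12, 19]), (-1, [2, 13, 17]), (1, [2, 13, 20]), (1, [3, 7, 17]), (-1, [3, 7, 20]), (-1,
    [3, 10, 19]), (1, [3, 10, 20]), (-1, [3, 12, 17]), (1, [3, 12, 19]), (-1, [4, 8, 19]), (1, [4, 8, 20]),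
    (-1, [4, 11, 17]), (1, [4, 11, 19]), (1, [4, 13, 17]), (-1, [4, 13, 20])]),
   ([11, 19], [(1, [0, 5, 16]), (-1, [0, 5, 17]), (-1, [0, 6, 16]), (1, [0, 6, 18]), (-1, [0, 7, 18]), (1,
    [0, 7, 20]), (1, [0, 8, 19]), (-1, [0, 8, 20]), (-1, [1, 5, 16]), (1, [1, 5, 17]), (-1, [1, 9, 18]), (1,
    [1, 9, 20]), (1, [1, 10, 16]), (-1, [1, 10, 20]), (-1, [1, 11, 17]), (1, [1, 11, 18]), (1, [2, 6, 16]),
    (-1, [2, 6, 18]), (1, [2, 9, 18]), (-1, [2, 9, 20]), (-1, [2, 13, 16]), (1, [2, 13, 20]), (1, [3, 7,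
    18]), (-1, [3, 7, 20]), (-1, [3, 10, 16]), (1, [3, 10, 20]), (1, [3, 14, 16]), (-1, [3, 14, 18]), (-1,
    [4, 8, 19]), (1, [4, 8, 20]), (-1, [4, 11, 18]), (1, [4, 11, 19]), (1, [4, 13, 16]), (-1, [4, 13, 20]),
    (-1, [4, 14, 16]), (1, [4, 14, 18])]),
   ([12, 17], [(-1, [0, 5, 16]), (1, [0, 5, 17]), (1, [0, 6, 16]), (-1, [0, 6, 19]), (-1, [0, 8, 15]), (1,
    [0, 8, 19]), (1, [1, 5, 16]), (-1, [1, 5, 17]), (-1, [1, 10, 16]), (1, [1, 10, 19]), (1, [1, 11, 17]),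
    (-1, [1, 11, 19]), (-1, [2, 6, 16]), (1, [2, 6, 19]), (1, [2, 12, 17]), (-1, [2, 12, 19]), (1, [2, 13,
    16]), (-1, [2, 13, 17]), (1, [3, 10, 16]), (-1, [3, 10, 19]), (-1, [3, 12, 15]), (1, [3, 12, 19]), (1,
    [3, 14, 15]), (-1, [3, 14, 16]), (1, [4, 8, 15]), (-1, [4, 8, 19]), (-1, [4, 11, 17]), (1, [4, 11, 19]),
    (-1, [4, 13, 16]), (1, [4, 13, 17]), (-1, [4, 14, 15]), (1, [4, 14, 16])]),
   ([12, 19], [(-1, [0, 5, 15]), (1, [0, 5, 17]), (-1, [0, 7, 17]), (1, [0, 7, 20]), (1, [0, 8, 19]), (-1,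
    [0, 8, 20]), (1, [1, 5, 15]), (-1, [1, 5, 17]), (-1, [1, 9, 15]), (1, [1, 9, 20]), (1, [1, 10, 19]),
    (-1, [1, 10, 20]), (1, [1, 11, 17]), (-1, [1, 11, 19]), (1, [2, 9, 15]), (-1, [2, 9, 20]), (-1, [2, 12,
    15]), (1, [2, 12, 17]), (-1, [2, 13, 17]), (1, [2, 13, 20]), (1, [3, 7, 17]), (-1, [3, 7, 20]), (-1, [3,
    10, 19]), (1, [3, 10, 20]), (-1, [3, 12, 17]), (1, [3, 12, 19]), (-1, [4, 8, 19]), (1, [4, 8, 20]), (-1,
    [4, 11, 17]), (1, [4, 11, 19]), (1, [4, 13, 17]), (-1, [4, 13, 20])]),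
   ([13, 17], [(1, [0, 5, 15]), (-1, [0, 5, 16]), (1, [0, 7, 17]), (-1, [0, 7, 20]), (-1, [0, 8, 15]), (1,
    [0, 8, 20]), (-1, [1, 5, 15]), (1, [1, 5, 16]), (1, [1, 9, 15]), (-1, [1, 9, 20]), (-1, [1, 10, 16]),
    (1, [1, 10, 20]), (-1, [2, 9, 15]), (1, [2, 9, 20]), (1, [2, 12, 15]), (-1, [2, 12, 17]), (1, [2, 13,
    17]), (-1, [2, 13, 20]), (-1, [3, 7, 17]), (1, [3, 7, 20]), (1, [3, 10, 16]), (-1, [3, 10, 20]), (-1,
    [3, 12, 15]), (1, [3, 12, 17]), (1, [3, 14, 15]), (-1, [3, 14, 16]), (1, [4, 8, 15]), (-1, [4, 8, 20]),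
    (-1, [4, 13, 16]), (1, [4, 13, 20]), (-1, [4, 14, 15]), (1, [4, 14, 16])]),
   ([13, 20], [(1, [0, 5, 15]), (-1, [0, 5, 17]), (-1, [0, 6, 16]), (1, [0, 6, 18]), (1, [0, 7, 17]), (-1,
    [0, 7, 18]), (-1, [0, 8, 15]), (1, [0, 8, 20]), (-1, [1, 5, 15]), (1, [1, 5, 17]), (1, [1, 9, 15]), (-1,
    [1, 9, 18]), (-1, [1, 11, 17]), (1, [1, 11, 18]), (1, [2, 6, 16]), (-1, [2, 6, 18]), (-1, [2, 9, 15]),
    (1, [2, 9, 18]), (1, [2, 12, 15]), (-1, [2, 12, 17]), (-1, [2, 13, 16]), (1, [2, 13, 17]), (-1, [3, 7,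
    17]), (1, [3, 7, 18]), (-1, [3, 12, 15]), (1, [3, 12, 17]), (1, [3, 14, 15]), (-1, [3, 14, 18]), (1, [4,
    8, 15]), (-1, [4, 8, 20]), (1, [4, 11, 17]), (-1, [4, 11, 18]), (-1, [4, 13, 17]), (1, [4, 13, 20]),
    (-1, [4, 14, 15]), (1, [4, 14, 18])]),
   ([14, 16], [(-1, [0, 5, 15]), (1, [0, 5, 17]), (1, [0, 6, 16]), (-1, [0, 6, 18]), (-1, [0, 7, 17]), (1,
    [0, 7, 18]), (1, [1, 5, 15]), (-1, [1, 5, 17]), (-1, [1, 9, 15]), (1, [1, 9, 18]), (1, [1, 11, 17]),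
    (-1, [1, 11, 18]), (-1, [2, 6, 16]), (1, [2, 6, 18]), (1, [2, 9, 15]), (-1, [2, 9, 18]), (-1, [2, 12,
    15]), (1, [2, 12, 17]), (1, [2, 13, 16]), (-1, [2, 13, 17]), (1, [3, 7, 17]), (-1, [3, 7, 18]), (1, [3,
    12, 15]), (-1, [3, 12, 17]), (-1, [3, 14, 15]), (1, [3, 14, 18]), (-1, [4, 11, 17]), (1, [4, 11, 18]),
    (-1, [4, 13, 16]), (1, [4, 13, 17]), (1, [4, 14, 16]), (-1, [4, 14, 18])]),
   ([14, 18], [(-1, [0, 5, 16]), (1, [0, 5, 17]), (1, [0, 6, 16]), (-1, [0, 6, 19]), (-1, [0, 7, 17]), (1,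
    [0, 7, 18]), (-1, [0, 8, 15]), (1, [0, 8, 19]), (1, [1, 5, 16]), (-1, [1, 5, 17]), (-1, [1, 10, 16]),
    (1, [1, 10, 19]), (1, [1, 11, 17]), (-1, [1, 11, 19]), (-1, [2, 6, 16]), (1, [2, 6, 19]), (1, [2, 12,
    17]), (-1, [2, 12, 19]), (1, [2, 13, 16]), (-1, [2, 13, 17]), (1, [3, 7, 17]), (-1, [3, 7, 18]), (1, [3,
    10, 16]), (-1, [3, 10, 19]), (-1, [3, 12, 17]), (1, [3, 12, 19]), (-1, [3, 14, 16]), (1, [3, 14, 18]),
    (1, [4, 8, 15]), (-1, [4, 8, 19]), (-1, [4, 11, 17]), (1, [4, 11, 19]), (-1, [4, 13, 16]), (1, [4, 13,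
    17]), (-1, [4, 14, 15]), (1, [4, 14, 16])])]

def tab : List (List (Fin 21) × FS) := tab0 ++ tab1 ++ tab2 ++ tab3 ++ tab4 ++ tab5

def con (l : List (Fin 21)) : FS := (tab.lookup l).getD []

def chk (l : List (Fin 21)) : Bool :=
  (con l).all (fun p => isCl p.2) && (nrm (ext bdL (con l) ++ ext con (bdL l) ++ [(-1, l)])).isEmpty

theorem chk0 : chk [] = true := by decide +kernel

theorem chk1 : ∀ a, chk [a] = true := by decide +kernel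

theorem chk2 : ∀ a b, a < b → adjF a b = true → chk [a, b] = true := by decide +kernel

theorem chk3 : ∀ a b, a < b → adjF a b = true → ∀ c, b < c → adjF a c = true → adjF b c = true →
    chk [a, b, c] = true := by decide +kernel

theorem no4 : ∀ a b, adjF a b = true → ∀ c, adjF a c = true → adjF b c = true →
    ∀ d, adjF a d = true → adjF b d = true → adjF c d = false := by decide +kernel

theorem chk_of {l : List (Fin 21)} (h : l.Pairwise (· < ·)) (h' : l.Pairwise Γ₀.Adj) :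
    l.length ≤ 3 ∧ chk l = true := by
  have e : ∀ a b, Γ₀.Adj a b → adjF a b = true := fun a b h => (adjF_eq a b).trans h
  rcases l with _ | ⟨a, _ | ⟨b, _ | ⟨c, _ | ⟨d, t⟩⟩⟩⟩
  · exact ⟨by simp, chk0⟩
  · exact ⟨by simp, chk1 a⟩
  · simp only [List.pairwise_cons, List.mem_cons, forall_eq_or_imp] at h h'
    exact ⟨by simp, chk2 a b h.1.1 (e _ _ h'.1.1)⟩
  · simp only [List.pairwise_cons, List.mem_cons, forall_eq_or_imp] at h h'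
    exact ⟨by simp, chk3 a b h.1.1 (e _ _ h'.1.1) c h.2.1.1 (e _ _ h'.1.2.1) (e _ _ h'.2.1.1)⟩
  · simp only [List.pairwise_cons, List.mem_cons, forall_eq_or_imp] at h'
    have := no4 a b (e _ _ h'.1.1) c (e _ _ h'.1.2.1) (e _ _ h'.2.1.1) d (e _ _ h'.1.2.2.1)
      (e _ _ h'.2.1.2.1)
    rw [e _ _ h'.2.2.1.1] at this
    exact absurd this (by simp)

theorem chk_sort {σ : Finset (Fin 21)} (h : Γ₀.IsClique (σ : Set (Fin 21))) :
    (σ.sort (· ≤ ·)).length ≤ 3 ∧ chk (σ.sort (· ≤ ·)) = true := by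
  have h1 : (σ.sort (· ≤ ·)).Pairwise (· < ·) := (Finset.sortedLT_sort σ).pairwise
  refine chk_of h1 (h1.imp_of_mem fun {a b} ha hb hab => ?_)
  exact h (by simpa using ha) (by simpa using hb) hab.ne

noncomputable def S : (Finset (Fin 21) →₀ ℤ) →ₗ[ℤ] (Finset (Fin 21) →₀ ℤ) :=
  Finsupp.linearCombination ℤ fun σ => ev (con (σ.sort (· ≤ ·)))

theorem S_single {l : List (Fin 21)} (h : l.Pairwise (· < ·)) :
    S (Finsupp.single l.toFinset 1) = ev (con l) := by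
  rw [S, Finsupp.linearCombination_single, one_smul,
    (List.toFinset_sort (· ≤ ·) (h.imp fun h => h.ne)).2 (h.imp fun h => h.le)]

theorem ev_mem {K : Set (Finset (Fin 21))} (l : FS) (h : ∀ p ∈ l, p.2.toFinset ∈ K) :
    ev l ∈ Finsupp.supported ℤ ℤ K := by
  induction l with
  | nil => simp
  | cons p t ih =>
    rw [ev_cons]
    exact add_mem (Submodule.smul_mem _ _ (Finsupp.single_mem_supported _ _ (h p List.mem_cons_self)))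
      (ih fun q hq => h q (List.mem_cons_of_mem _ hq))

theorem key {σ : Finset (Fin 21)} (h : Γ₀.IsClique (σ : Set (Fin 21))) :
    S (Finsupp.single σ 1) ∈ Finsupp.supported ℤ ℤ {σ : Finset (Fin 21) | Γ₀.IsClique (σ : Set (Fin 21))} ∧
      sbd (S (Finsupp.single σ 1)) + S (sbd (Finsupp.single σ 1)) = Finsupp.single σ 1 := by
  have h1 : (σ.sort (· ≤ ·)).Pairwise (· < ·) := (Finset.sortedLT_sort σ).pairwise
  have h2 := (chk_sort h).2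
  have h3 : (σ.sort (· ≤ ·)).toFinset = σ := Finset.sort_toFinset _ _
  generalize σ.sort (· ≤ ·) = l at h1 h2 h3
  subst h3
  simp only [chk, Bool.and_eq_true, List.all_eq_true, List.isEmpty_iff] at h2
  rw [S_single h1]
  refine ⟨ev_mem _ fun p hp => isCl_clique (h2.1 p hp), ?_⟩
  have h4 := ev_nrm (ext bdL (con l) ++ ext con (bdL l) ++ [(-1, l)])
  rw [h2.2, ev_append, ev_append, ev_ext bdL sbd _ fun p hp => sbd_single (isCl_nodup (h2.1 p hp)),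
    ev_ext con S _ ?_, ← sbd_single (h1.imp fun h => h.ne), ev_cons, ev_nil, add_zero, neg_smul,
    one_smul, ← sub_eq_add_neg] at h4
  · exact sub_eq_zero.1 h4.symm
  · intro p hp
    obtain ⟨a, -, rfl⟩ := List.mem_map.1 hp
    exact S_single (h1.filter _)

end GAc

theorem dim₀ (σ : Finset (Fin 21)) (h : Γ₀.IsClique (σ : Set (Fin 21))) : σ.card ≤ 3 := by
  simpa using (GAc.chk_sort h).1

theorem acyc₀ : Acyc {σ : Finset (Fin 21) | Γ₀.IsClique (σ : Set (Fin 21))} := by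
  intro z hz h0
  have e : z = ∑ σ ∈ z.support, z σ • Finsupp.single σ (1 : ℤ) := by
    simpa [Finsupp.sum] using (Finsupp.sum_single z).symm
  refine ⟨GAc.S z, ?_, ?_⟩
  · have : GAc.S z ∈ Finsupp.supported ℤ ℤ
        {σ : Finset (Fin 21) | Γ₀.IsClique (σ : Set (Fin 21))} := by
      rw [e, map_sum]
      exact sum_mem fun σ hσ => by
        rw [map_smul]
        exact Submodule.smul_mem _ _ (GAc.key (hz σ hσ)).1
    exact fun σ hσ => this hσ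
  · have : sbd (GAc.S z) + GAc.S (sbd z) = z := by
      conv_rhs => rw [e]
      conv_lhs => rw [e]
      simp only [map_sum, map_smul, ← Finset.sum_add_distrib, ← smul_add]
      exact Finset.sum_congr rfl fun σ hσ => by rw [(GAc.key (hz σ hσ)).2]
    rwa [h0, map_zero, add_zero] at this

end Crest.Agent.R197
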